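import Vale.Agent.P336.H932.LangDefs
import Vale.Agent.P336.H663.Defs
import Vale.Agent.Lib.PolyTime.TypedTM2
import Vale.Agent.Lib.PolyTime.Bitwise
import Vale.Agent.Lib.PolyTime.Lists3
import Vale.Agent.Lib.PolyTime.Lists2
import Vale.Agent.Lib.PolyTime.NatArith2

/-!
# P336: the explicit language is decided in polynomial time
-/

namespace Vale.Agent.P336

open Finset Vale.Agent.Lib.PolyTime

variable {A : Set Word} {α : Type*} [Enc α]

/-! ### The scanner as a fold -/

/-- States of the scanner: the pending bit, the parity, the current list, the finished lists. -/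
abbrev ScanSt : Type := Option Bool × Bool × List Bool × List (List Bool)

/-- One step of the scanner. -/
def scanStep (st : ScanSt) (b : Bool) : ScanSt :=
  match st.1 with
  | none => (some b, st.2.1, st.2.2.1, st.2.2.2)
  | some false => (none, xor st.2.1 b, st.2.2.1, st.2.2.2)
  | some true =>
    if b then (none, false, [], st.2.2.2 ++ [st.2.2.1])
    else (none, false, st.2.2.1 ++ [st.2.1], st.2.2.2)

theorem scan_eq_foldl : ∀ (w : List Bool) (s : Bool) (l : List Bool) (d : List (List Bool)),
    (w.foldl scanStep (none, s, l, d)).2.2.2 = d ++ scan w s l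
  | [], s, l, d => by simp [scan]
  | [b], s, l, d => by cases b <;> simp [scan, scanStep]
  | false :: b :: w, s, l, d => by
    rw [List.foldl_cons, List.foldl_cons]
    simp only [scanStep, scan]
    exact scan_eq_foldl w _ _ _
  | true :: false :: w, s, l, d => by
    rw [List.foldl_cons, List.foldl_cons]
    simp only [scanStep, scan, Bool.false_eq_true, if_false]
    exact scan_eq_foldl w _ _ _
  | true :: true :: w, s, l, d => by
    rw [List.foldl_cons, List.foldl_cons]
    simp only [scanStep, scan, if_true]
    rw [scan_eq_foldl w _ _ _]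
    simp

theorem esize_nil' {β : Type*} [Enc β] : esize ([] : List β) = 0 := rfl

/-- Potential of a state. -/
def pot (st : ScanSt) : ℕ := esize st.2.2.2 + 2 * esize st.2.2.1

theorem pot_step (st : ScanSt) (b : Bool) : pot (scanStep st b) ≤ pot st + 6 := by
  obtain ⟨o, s, l, d⟩ := st
  rcases o with _ | _ | _
  · simp [scanStep, pot]
  · simp [scanStep, pot]
  · cases b
    · simp only [scanStep, pot, Bool.false_eq_true, if_false, esize_append]
      have h1 : esize [s] = 3 := by
        rw [esize_list]
        simp [esize_bool]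
      omega
    · simp only [scanStep, pot, if_true, esize_append]
      have h1 : esize [l] = 2 * esize l + 1 := by
        rw [esize_list]
        simp
      have h2 : esize ([] : List Bool) = 0 := rfl
      omega

theorem pot_foldl (w : List Bool) (st : ScanSt) :
    pot (w.foldl scanStep st) ≤ pot st + 6 * w.length := by
  induction w generalizing st with
  | nil => simp
  | cons b w ih =>
    rw [List.foldl_cons, List.length_cons]
    have h1 := ih (scanStep st b)
    have h2 := pot_step st b
    omega

theorem esize_opt_le (o : Option Bool) : esize o ≤ 2 := by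
  rcases o with _ | b
  · exact Nat.zero_le _
  · exact le_rfl

theorem esize_st_le (st : ScanSt) : esize st ≤ 20 + pot st := by
  obtain ⟨o, s, l, d⟩ := st
  rw [esize_pair, esize_pair, esize_pair]
  have h1 := esize_opt_le o
  have h2 : esize s = 1 := rfl
  simp only [pot]
  omega

theorem PT_scanStep : PT A (fun p : ScanSt × Bool => scanStep p.1 p.2) := by
  have hst : PT A (fun p : ScanSt × Bool => p.1) := PT.fst'
  have hb : PT A (fun p : ScanSt × Bool => p.2) := PT.snd'
  have hs : PT A (fun p : ScanSt × Bool => p.1.2.1) := hst.snd.fst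
  have hl : PT A (fun p : ScanSt × Bool => p.1.2.2.1) := hst.snd.snd.fst
  have hd : PT A (fun p : ScanSt × Bool => p.1.2.2.2) := hst.snd.snd.snd
  have h0 : PT A (fun p : ScanSt × Bool => ((some p.2, p.1.2.1, p.1.2.2.1, p.1.2.2.2) : ScanSt)) :=
    (PT.some hb).pair (hs.pair (hl.pair hd))
  have h1 : PT A (fun p : ScanSt × Bool =>
      ((none, xor p.1.2.1 p.2, p.1.2.2.1, p.1.2.2.2) : ScanSt)) :=
    (PT.const none).pair ((PT.xor hs hb).pair (hl.pair hd))
  have h2 : PT A (fun p : ScanSt × Bool =>
      ((none, false, [], p.1.2.2.2 ++ [p.1.2.2.1]) : ScanSt)) :=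
    (PT.const none).pair ((PT.const false).pair ((PT.const []).pair
      (PT.append hd (PT.cons hl PT.nil))))
  have h3 : PT A (fun p : ScanSt × Bool =>
      ((none, false, p.1.2.2.1 ++ [p.1.2.1], p.1.2.2.2) : ScanSt)) :=
    (PT.const none).pair ((PT.const false).pair ((PT.append hl (PT.cons hs PT.nil)).pair hd))
  have h4 : PT A (fun p : ScanSt × Bool =>
      (bif p.2 then ((none, false, [], p.1.2.2.2 ++ [p.1.2.2.1]) : ScanSt)
        else (none, false, p.1.2.2.1 ++ [p.1.2.1], p.1.2.2.2))) := PT.cond hb h2 h3
  have h5 : PT A (fun q : (ScanSt × Bool) × Bool =>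
      (bif q.2 then (bif q.1.2 then ((none, false, [], q.1.1.2.2.2 ++ [q.1.1.2.2.1]) : ScanSt)
        else (none, false, q.1.1.2.2.1 ++ [q.1.1.2.1], q.1.1.2.2.2))
        else ((none, xor q.1.1.2.1 q.1.2, q.1.1.2.2.1, q.1.1.2.2.2) : ScanSt))) :=
    PT.cond PT.snd' (h4.comp PT.fst') (h1.comp PT.fst')
  refine (PT.optCase (o := fun p : ScanSt × Bool => p.1.1) hst.fst h0
    (g := fun (p : ScanSt × Bool) (c : Bool) =>
      (bif c then (bif p.2 then ((none, false, [], p.1.2.2.2 ++ [p.1.2.2.1]) : ScanSt)
        else (none, false, p.1.2.2.1 ++ [p.1.2.1], p.1.2.2.2))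
        else ((none, xor p.1.2.1 p.2, p.1.2.2.1, p.1.2.2.2) : ScanSt))) h5).congr fun p => ?_
  obtain ⟨⟨o, s, l, d⟩, b⟩ := p
  rcases o with _ | _ | _
  · rfl
  · rfl
  · cases b <;> rfl

theorem PT_scan {w : α → List Bool} (hw : PT A w) : PT A (fun a => scan (w a) false []) := by
  have h1 : PT A (fun a => (w a).foldl scanStep ((none, false, [], []) : ScanSt)) := by
    refine PT.foldl (f := fun _ => scanStep) hw (PT.const _) (PT_scanStep.comp PT.snd')
      (b := fun a => 20 + 6 * esize (w a)) ((PBd.const 20).add ((PBd.const 6).mul hw.pbd))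
      fun a i => ?_
    refine (esize_st_le _).trans ?_
    have h2 := pot_foldl ((w a).take i) ((none, false, [], []) : ScanSt)
    have h3 : pot ((none, false, [], []) : ScanSt) = 0 := rfl
    have h4 : ((w a).take i).length ≤ (w a).length := List.length_take_le' _ _
    have h5 := length_le_esize (w a)
    omega
  refine h1.snd.snd.snd.congr fun a => ?_
  rw [scan_eq_foldl]
  rfl

/-! ### The form -/

theorem PT_sumRange {k : α → ℕ} {f : α → ℕ → ℕ} (hk : PT A k) (hkb : PBd k)
    (hf : PT A (fun p : α × ℕ => f p.1 p.2)) : PT A (fun a => ∑ i ∈ range (k a), f a i) := by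
  refine (PT.sum (PT.map (PT.range hk hkb) hf)).congr fun a => ?_
  induction k a with
  | zero => rfl
  | succ n ih => rw [List.range_succ, Finset.sum_range_succ, ← ih]; simp

theorem PT_bitAt {l : α → List Bool} {i : α → ℕ} (hl : PT A l) (hi : PT A i) :
    PT A (fun a => bitAt (l a) (i a)) := by
  refine ((PT.getD hl hi (PT.const false)).cond (PT.const 1) (PT.const 0)).congr fun a => ?_
  unfold bitAt
  cases (l a).getD (i a) false <;> rfl

theorem PT_bilin {u v c : α → List Bool} (hu : PT A u) (hv : PT A v) (hc : PT A c) :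
    PT A (fun a => bilin (u a) (v a) (c a)) := by
  unfold bilin
  refine PT_sumRange (PT.length hu) (PBd.length hu) ?_
  refine PT_sumRange (PT.length (hv.comp PT.fst')) (PBd.length (hv.comp PT.fst')) ?_
  have h1 : PT A (fun p : (α × ℕ) × ℕ => p.1.1) := PT.fst'.fst
  have h2 : PT A (fun p : (α × ℕ) × ℕ => p.1.2) := PT.fst'.snd
  have h3 : PT A (fun p : (α × ℕ) × ℕ => p.2) := PT.snd'
  exact PT.mul (PT.mul (PT_bitAt (hu.comp h1) h2) (PT_bitAt (hv.comp h1) h3))
    (PT_bitAt (hc.comp h1) (PT.add (PT.mul h2 (PT.length (hv.comp h1))) h3))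

theorem PT_total {d : α → List (List Bool)} (hd : PT A d) : PT A (fun a => total (d a)) := by
  unfold total
  refine PT_sumRange (PT.div (PT.length hd) (PT.const 3))
    ((PBd.length hd).mono fun a => Nat.div_le_self _ _) ?_
  have h1 : PT A (fun p : α × ℕ => d p.1) := hd.comp PT.fst'
  have h2 : PT A (fun p : α × ℕ => 3 * p.2) := PT.mul (PT.const 3) PT.snd'
  exact PT_bilin (PT.getD h1 h2 (PT.const []))
    (PT.getD h1 (PT.add h2 (PT.const 1)) (PT.const []))
    (PT.getD h1 (PT.add h2 (PT.const 2)) (PT.const []))

/-- Membership in the language is computable in polynomial time. -/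
theorem PT_lang {w : α → List Bool} (hw : PT A w) :
    PT A (fun a => decide (total (scan (w a) false []) % 2 = 1)) :=
  PT.odd (PT_total (PT_scan hw))

/-- The language is decided in polynomial time. -/
theorem inP_lang : InP lang := by
  have h : PT ∅ (fun w : Raw => decide (total (scan w.w false []) % 2 = 1)) :=
    PT_lang (PT.listOfRaw PT.id)
  obtain ⟨g, hg, h⟩ := h
  have h2 : ∃ M : Turing.TM2ComputableInPolyTime (id : List Bool → List Bool)
      Computability.encodeBool (fun w => decide (total (scan w false []) % 2 = 1)),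
      ∀ k, Finite (M.tm.Γ k) := by
    refine exists_tm2_of_polyTimeFun _ _ _ g (polyTimeFun_iff.2 hg) fun w => ?_
    exact h (Raw.mk w)
  unfold InP
  have h3 : (fun w => @decide (w ∈ lang) (Classical.propDecidable _)) =
      fun w => decide (total (scan w false []) % 2 = 1) := by
    funext w
    rw [decide_eq_decide]
    rfl
  rw [h3]
  exact h2

end Vale.Agent.P336
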