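import Vale.Agent.P336.H932.Embed
import Vale.Agent.P336.H663.Global
import Vale.Agent.P336.H567.Corr
import Vale.Agent.P336.H887.Moment

/-!
# P336: block forms are restrictions of the slices of the language
-/

namespace Vale.Agent.P336

open Finset

theorem parity_eq {b : ℕ} (w : Fin b → Bool) : parity w = Expansion.parity w := by
  unfold parity Expansion.parity
  induction b with
  | zero => simp [parL]
  | succ b ih =>
    rw [List.ofFn_succ, parL_cons, ih fun i => w i.succ]
    have h1 : (univ.filter fun j => w j = true).card =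
        (w 0).toNat + (univ.filter fun j : Fin b => w j.succ = true).card := by
      rw [Fin.card_filter_univ_succ]
      cases w 0 <;> simp [add_comm]
    rw [h1]
    cases w 0
    · simp
    · simp only [Bool.toNat_true, Bool.true_xor]
      rw [← decide_not, decide_eq_decide, add_comm, Nat.odd_add_one]

/-- The function on `(Fin g × (Fin m ⊕ Fin m)) × Fin b` variables computed by the language. -/
def formFn {g m : ℕ} (b : ℕ) (a : Fin g → Fin m → Fin m → Bool)
    (x : (Fin g × (Fin m ⊕ Fin m)) × Fin b → Bool) : Bool :=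
  decide (blockForm a (Expansion.yv Expansion.parity x) % 2 = 1)

theorem exists_sigma {g m b n N : ℕ} (a : Fin g → Fin m → Fin m → Bool) (hn : codeLen g m b ≤ n)
    (e : (Fin g × (Fin m ⊕ Fin m)) × Fin b ≃ Fin N) :
    ∃ σ : Fin n → Lit N, ∀ x : Fin N → Bool,
      formFn b a (fun v => x (e v)) = slice lang n fun i => (σ i).eval x := by
  obtain ⟨τ, hτ⟩ := embed a hn
  refine ⟨fun i => match τ i with
    | Sum.inl c => Lit.const c
    | Sum.inr v => Lit.pos (e v), fun x => ?_⟩
  have h1 : (fun i => (match τ i with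
      | Sum.inl c => Lit.const c
      | Sum.inr v => Lit.pos (e v) : Lit N).eval x) =
      fun i => Sum.elim id (fun v => x (e v)) (τ i) := by
    funext i
    rcases τ i with c | v
    · rfl
    · rfl
  unfold slice formFn
  rw [h1, decide_eq_decide, hτ fun v => x (e v)]
  have h2 : (fun w => parity fun j => x (e (w, j))) =
      Expansion.yv Expansion.parity (fun v => x (e v)) := by
    funext w
    rw [parity_eq]
    rfl
  rw [h2]

/-- The slices of the language are at least as hard as the block forms. -/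
theorem S3_formFn_le {g m b n N : ℕ} (a : Fin g → Fin m → Fin m → Bool) (hn : codeLen g m b ≤ n)
    (e : (Fin g × (Fin m ⊕ Fin m)) × Fin b ≃ Fin N) :
    S3 (fun x : Fin N → Bool => formFn b a fun v => x (e v)) ≤ S3 (slice lang n) := by
  obtain ⟨σ, h⟩ := exists_sigma a hn e
  exact S3_subst σ _ _ h

/-- The same for the complements. -/
theorem S3_not_formFn_le {g m b n N : ℕ} (a : Fin g → Fin m → Fin m → Bool)
    (hn : codeLen g m b ≤ n) (e : (Fin g × (Fin m ⊕ Fin m)) × Fin b ≃ Fin N) :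
    S3 (fun x : Fin N → Bool => !formFn b a fun v => x (e v)) ≤ S3 (fun x => !slice lang n x) := by
  obtain ⟨σ, h⟩ := exists_sigma a hn e
  exact S3_subst σ _ _ fun x => by rw [h]

/-- The sign of the block form as a product. -/
theorem prod_sign {g m : ℕ} (a : Fin g → Fin m → Fin m → Bool)
    (z : Fin g × (Fin m ⊕ Fin m) → Bool) :
    (∏ i, ∏ j, ∏ k, (if a i j k && z (i, Sum.inl j) && z (i, Sum.inr k) then (-1 : ℝ) else 1)) =
      (-1) ^ blockForm a z := by
  unfold blockForm
  rw [← Finset.prod_pow_eq_pow_sum]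
  refine Finset.prod_congr rfl fun i _ => ?_
  rw [← Finset.prod_pow_eq_pow_sum]
  refine Finset.prod_congr rfl fun j _ => ?_
  rw [← Finset.prod_pow_eq_pow_sum]
  refine Finset.prod_congr rfl fun k _ => ?_
  cases a i j k && z (i, Sum.inl j) && z (i, Sum.inr k) <;> simp

theorem sgn_formFn {g m b : ℕ} (a : Fin g → Fin m → Fin m → Bool)
    (x : (Fin g × (Fin m ⊕ Fin m)) × Fin b → Bool) :
    sgn (formFn b a) x = -(-1) ^ blockForm a (Expansion.yv Expansion.parity x) := by
  unfold sgn formFn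
  rcases Nat.mod_two_eq_zero_or_one (blockForm a (Expansion.yv Expansion.parity x)) with h | h
  · rw [h, Even.neg_one_pow (Nat.even_iff.2 h)]
    simp
  · rw [h, Odd.neg_one_pow (Nat.odd_iff.2 h)]
    simp

theorem sgn_not_formFn {g m b : ℕ} (a : Fin g → Fin m → Fin m → Bool)
    (x : (Fin g × (Fin m ⊕ Fin m)) × Fin b → Bool) :
    sgn (fun x => !formFn b a x) x = (-1) ^ blockForm a (Expansion.yv Expansion.parity x) := by
  show (if (!decide (blockForm a (Expansion.yv Expansion.parity x) % 2 = 1)) = true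
    then (1 : ℝ) else -1) = _
  rcases Nat.mod_two_eq_zero_or_one (blockForm a (Expansion.yv Expansion.parity x)) with h | h
  · rw [h, Even.neg_one_pow (Nat.even_iff.2 h)]
    simp
  · rw [h, Odd.neg_one_pow (Nat.odd_iff.2 h)]
    simp

theorem Corr.nonneg {V : Type} [Fintype V] [DecidableEq V] {g : (V → Bool) → ℝ} {k : ℕ} {δ : ℝ}
    (h : Corr g k δ) : 0 ≤ δ := by
  have h1 := h 0 (fun _ => ⟨∅, fun _ => false⟩) fun i hi => absurd hi (Nat.not_lt_zero i)
  have h2 : (0 : ℝ) < 2 ^ Fintype.card V := by positivity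
  by_contra h3
  exact absurd ((abs_nonneg _).trans h1) (not_le.2 (mul_neg_of_neg_of_pos (not_le.1 h3) h2))

theorem Corr.congr {V : Type} [Fintype V] [DecidableEq V] {g g' : (V → Bool) → ℝ} {k : ℕ} {δ : ℝ}
    (h : Corr g k δ) (e : ∀ x, g' x = g x) : Corr g' k δ := by
  have : g' = g := funext e
  rw [this]
  exact h

theorem Corr.neg {V : Type} [Fintype V] [DecidableEq V] {g g' : (V → Bool) → ℝ} {k : ℕ} {δ : ℝ}
    (h : Corr g k δ) (e : ∀ x, g' x = -g x) : Corr g' k δ := by
  intro M C hC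
  have h1 := h M C hC
  have h2 : ∑ x, g' x * ∏ i ∈ range M, Expansion.ind (C i) x =
      -∑ x, g x * ∏ i ∈ range M, Expansion.ind (C i) x := by
    rw [← Finset.sum_neg_distrib]
    refine Finset.sum_congr rfl fun x _ => ?_
    rw [e, neg_mul]
  rw [h2, abs_neg]
  exact h1

theorem quarter_mono {s s' k : ℕ} {δ : ℝ} (hδ : 0 ≤ δ) (hs : s ≤ s')
    (h1 : 1 / 4 ≤ (s : ℝ) * δ + (s : ℝ) ^ 2 / 2 ^ k) :
    1 / 4 ≤ (s' : ℝ) * δ + (s' : ℝ) ^ 2 / 2 ^ k := by
  have h2 : (s : ℝ) ≤ s' := by exact_mod_cast hs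
  have h3 : (0 : ℝ) ≤ s := Nat.cast_nonneg s
  refine h1.trans (add_le_add (mul_le_mul_of_nonneg_right h2 hδ) ?_)
  exact div_le_div_of_nonneg_right (pow_le_pow_left₀ h3 h2 2) (by positivity)

/-- The sign of the block form in the notation of the moment bound. -/
theorem hB_eq {g m : ℕ} (a : Fin g × Fin m × Fin m → Bool) (z : Fin g × (Fin m ⊕ Fin m) → Bool) :
    Moment.hB a z = (-1) ^ blockForm (fun i j k => a (i, j, k)) z := by
  rw [← prod_sign]
  unfold Moment.hB
  rw [Fintype.prod_prod_type]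
  refine Finset.prod_congr rfl fun i _ => ?_
  rw [Fintype.prod_prod_type]
  refine Finset.prod_congr rfl fun j _ => ?_
  refine Finset.prod_congr rfl fun k _ => ?_
  have e : (a (i, j, k) && Moment.cor z (i, j, k)) =
      (a (i, j, k) && z (i, Sum.inl j) && z (i, Sum.inr k)) := (Bool.and_assoc _ _ _).symm
  by_cases h : (a (i, j, k) && z (i, Sum.inl j) && z (i, Sum.inr k)) = true
  · rw [if_pos h, if_pos (e.trans h)]
  · rw [if_neg h, if_neg fun h' => h (e.symm.trans h')]

/-- **Part E, summary.**  If the sign of the block form has small correlation with conjunctions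
of clauses of width at most `k`, then all slices of the language of length at least
`codeLen g m b` need large depth-three circuits. -/
theorem S3_lang_of_corr {g m b n k : ℕ} {δ : ℝ} (a : Fin g → Fin m → Fin m → Bool)
    (hn : codeLen g m b ≤ n) (hδ : δ ≤ 1 / 2)
    (h : Corr (fun x : (Fin g × (Fin m ⊕ Fin m)) × Fin b → Bool =>
      (-1) ^ blockForm a (Expansion.yv Expansion.parity x)) k δ) :
    1 / 4 ≤ (S3 (slice lang n) : ℝ) * δ + (S3 (slice lang n) : ℝ) ^ 2 / 2 ^ k := by
  obtain ⟨N, ⟨e⟩⟩ : ∃ N, Nonempty ((Fin g × (Fin m ⊕ Fin m)) × Fin b ≃ Fin N) :=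
    ⟨_, ⟨Fintype.equivFin _⟩⟩
  have h0 : Corr (sgn (formFn b a)) k δ := h.neg fun x => sgn_formFn a x
  have h1 := S3_of_corr' e (formFn b a) hδ h0
  exact quarter_mono h.nonneg (S3_formFn_le a hn e) h1

/-- The same for the complements. -/
theorem S3_not_lang_of_corr {g m b n k : ℕ} {δ : ℝ} (a : Fin g → Fin m → Fin m → Bool)
    (hn : codeLen g m b ≤ n) (hδ : δ ≤ 1 / 2)
    (h : Corr (fun x : (Fin g × (Fin m ⊕ Fin m)) × Fin b → Bool =>
      (-1) ^ blockForm a (Expansion.yv Expansion.parity x)) k δ) :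
    1 / 4 ≤ (S3 (fun x => !slice lang n x) : ℝ) * δ +
      (S3 (fun x => !slice lang n x) : ℝ) ^ 2 / 2 ^ k := by
  obtain ⟨N, ⟨e⟩⟩ : ∃ N, Nonempty ((Fin g × (Fin m ⊕ Fin m)) × Fin b ≃ Fin N) :=
    ⟨_, ⟨Fintype.equivFin _⟩⟩
  have h0 : Corr (sgn fun x => !formFn b a x) k δ := h.congr fun x => sgn_not_formFn a x
  have h1 := S3_of_corr' e (fun x => !formFn b a x) hδ h0
  exact quarter_mono h.nonneg (S3_not_formFn_le a hn e) h1

/-- Part E with the notation of the moment bound. -/
theorem S3_lang_of_hB {g m b n k : ℕ} {δ : ℝ} (a : Fin g × Fin m × Fin m → Bool)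
    (hn : codeLen g m b ≤ n) (hδ : δ ≤ 1 / 2)
    (h : Corr (fun x : (Fin g × (Fin m ⊕ Fin m)) × Fin b → Bool =>
      Moment.hB a (Expansion.yv Expansion.parity x)) k δ) :
    1 / 4 ≤ (S3 (slice lang n) : ℝ) * δ + (S3 (slice lang n) : ℝ) ^ 2 / 2 ^ k ∧
    1 / 4 ≤ (S3 (fun x => !slice lang n x) : ℝ) * δ +
      (S3 (fun x => !slice lang n x) : ℝ) ^ 2 / 2 ^ k := by
  have h1 := h.congr fun x => (hB_eq a (Expansion.yv Expansion.parity x)).symm
  exact ⟨S3_lang_of_corr _ hn hδ h1, S3_not_lang_of_corr _ hn hδ h1⟩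

end Vale.Agent.P336
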