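import Vale.Agent.P336.H932.LangDefs

/-!
# P336: every function `x ↦ ∑ u_iᵀ A_i v_i` of block parities is a restriction of the language
-/

namespace Vale.Agent.P336

open Finset

/-! ### Encoders, generic in the type of the entries (`c` embeds the constants) -/

section Enc

variable {E F : Type*}

/-- Code of a block. -/
def eBlock (c : Bool → E) (es : List E) : List E :=
  (es.flatMap fun e => [c false, e]) ++ [c true, c false]

/-- Code of a list of blocks. -/
def eList (c : Bool → E) (bs : List (List E)) : List E :=
  bs.flatMap (eBlock c) ++ [c true, c true]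

theorem map_eBlock (f : E → F) (c : Bool → E) (es : List E) :
    (eBlock c es).map f = eBlock (f ∘ c) (es.map f) := by
  simp [eBlock, List.map_flatMap, List.flatMap_map]

theorem map_eList (f : E → F) (c : Bool → E) (bs : List (List E)) :
    (eList c bs).map f = eList (f ∘ c) (bs.map (List.map f)) := by
  simp [eList, List.map_flatMap, List.flatMap_map, map_eBlock]

theorem length_eBlock (c : Bool → E) (es : List E) : (eBlock c es).length = 2 * es.length + 2 := by
  simp only [eBlock, List.length_append, List.length_flatMap, List.length_cons, List.length_nil,
    List.map_const', List.sum_replicate, smul_eq_mul]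
  ring

theorem length_eList_of (c : Bool → E) (bs : List (List E)) {k : ℕ}
    (h : ∀ b ∈ bs, b.length = k) : (eList c bs).length = bs.length * (2 * k + 2) + 2 := by
  have h1 : (bs.flatMap (eBlock c)).length = bs.length * (2 * k + 2) := by
    induction bs with
    | nil => simp
    | cons b bs ih =>
      rw [List.flatMap_cons, List.length_append, length_eBlock,
        ih fun b hb => h b (List.mem_cons_of_mem _ hb), h b List.mem_cons_self, List.length_cons]
      ring
  simp [eList, h1]

end Enc

/-- Parity of a block. -/
def parL (l : List Bool) : Bool := l.foldl xor false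

theorem scan_data (es : List Bool) (w : List Bool) (s : Bool) (l : List Bool) :
    scan ((es.flatMap fun e => [false, e]) ++ w) s l = scan w (es.foldl xor s) l := by
  induction es generalizing s with
  | nil => rfl
  | cons e es ih =>
    rw [List.flatMap_cons, List.foldl_cons]
    simp only [List.cons_append, List.nil_append, scan]
    exact ih _

theorem scan_eBlock (es : List Bool) (w : List Bool) (s : Bool) (l : List Bool) :
    scan (eBlock id es ++ w) s l = scan w false (l ++ [es.foldl xor s]) := by
  unfold eBlock
  simp only [id]
  rw [List.append_assoc, scan_data]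
  rfl

theorem scan_eBlocks (bs : List (List Bool)) (w : List Bool) (l : List Bool) :
    scan (bs.flatMap (eBlock id) ++ w) false l = scan w false (l ++ bs.map parL) := by
  induction bs generalizing l with
  | nil => simp
  | cons b bs ih =>
    rw [List.flatMap_cons, List.append_assoc, scan_eBlock, ih]
    simp [parL]

theorem scan_eList (bs : List (List Bool)) (w : List Bool) :
    scan (eList id bs ++ w) false [] = bs.map parL :: scan w false [] := by
  unfold eList
  rw [List.append_assoc, scan_eBlocks]
  rfl

theorem scan_zeros (k : ℕ) (s : Bool) (l : List Bool) : scan (List.replicate k false) s l = [] := by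
  induction k using Nat.strong_induction_on generalizing s with
  | _ k ih =>
    rcases k with _ | _ | k
    · rfl
    · rfl
    · rw [List.replicate_succ, List.replicate_succ, scan]
      exact ih k (by omega) _

/-! ### The total -/

theorem total_cons (u v a : List Bool) (d : List (List Bool)) :
    total (u :: v :: a :: d) = bilin u v a + total d := by
  unfold total
  have h1 : (u :: v :: a :: d).length / 3 = d.length / 3 + 1 := by
    simp only [List.length_cons]
    omega
  rw [h1, Finset.sum_range_succ', add_comm]
  congr 1

theorem total_flatMap {ι : Type*} (is : List ι) (u v a : ι → List Bool) :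
    total (is.flatMap fun i => [u i, v i, a i]) = (is.map fun i => bilin (u i) (v i) (a i)).sum := by
  induction is with
  | nil => simp [total]
  | cons i is ih =>
    rw [List.flatMap_cons]
    simp only [List.cons_append, List.nil_append, List.map_cons, List.sum_cons]
    rw [total_cons, ih]

theorem bitAt_ofFn {m : ℕ} (f : Fin m → Bool) (p : Fin m) : bitAt (List.ofFn f) p = (f p).toNat := by
  unfold bitAt
  rw [List.getD_eq_getElem _ _ (by simp)]
  simp

theorem bilin_ofFn {m : ℕ} (u v : Fin m → Bool) (a : Fin m → Fin m → Bool) :
    bilin (List.ofFn u) (List.ofFn v)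
      (List.ofFn fun t : Fin (m * m) => a t.divNat t.modNat) =
    ∑ j, ∑ k, (a j k && u j && v k).toNat := by
  unfold bilin
  rw [List.length_ofFn, List.length_ofFn, Finset.sum_range]
  refine Finset.sum_congr rfl fun p _ => ?_
  rw [Finset.sum_range]
  refine Finset.sum_congr rfl fun q _ => ?_
  have hlt : (p : ℕ) * m + q < m * m := by
    have h1 := p.2
    have h2 := q.2
    calc (p : ℕ) * m + q < p * m + m := by omega
      _ = (p + 1) * m := by ring
      _ ≤ m * m := Nat.mul_le_mul_right _ h1
  have h3 : bitAt (List.ofFn fun t : Fin (m * m) => a t.divNat t.modNat) (p * m + q) =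
      (a p q).toNat := by
    have h4 := bitAt_ofFn (fun t : Fin (m * m) => a t.divNat t.modNat) ⟨p * m + q, hlt⟩
    rw [h4]
    have hm : 0 < m := by have := p.2; omega
    have e1 : (⟨p * m + q, hlt⟩ : Fin (m * m)).divNat = p := by
      apply Fin.ext
      show ((p : ℕ) * m + q) / m = p
      rw [mul_comm, Nat.mul_add_div hm, Nat.div_eq_of_lt q.2, add_zero]
    have e2 : (⟨p * m + q, hlt⟩ : Fin (m * m)).modNat = q := by
      apply Fin.ext
      show ((p : ℕ) * m + q) % m = q
      rw [mul_comm, Nat.mul_add_mod, Nat.mod_eq_of_lt q.2]
    rw [e1, e2]
  rw [h3, bitAt_ofFn, bitAt_ofFn]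
  cases a p q <;> cases u p <;> cases v q <;> rfl

/-! ### The embedding -/

/-- Parity of a block. -/
def parity {b : ℕ} (w : Fin b → Bool) : Bool := parL (List.ofFn w)

theorem foldl_xor_start (l : List Bool) (s : Bool) : l.foldl xor s = xor s (l.foldl xor false) := by
  induction l generalizing s with
  | nil => simp
  | cons b l ih =>
    rw [List.foldl_cons, List.foldl_cons, ih, ih (xor false b)]
    simp

theorem parL_cons (b : Bool) (l : List Bool) : parL (b :: l) = xor b (parL l) := by
  unfold parL
  rw [List.foldl_cons, foldl_xor_start]
  simp

theorem parL_append (l l' : List Bool) : parL (l ++ l') = xor (parL l) (parL l') := by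
  induction l with
  | nil => simp [parL]
  | cons b l ih => rw [List.cons_append, parL_cons, parL_cons, ih, Bool.xor_assoc]

/-- Flipping one bit flips the parity. -/
theorem parity_flip {b : ℕ} (w : Fin b → Bool) (j : Fin b) :
    parity (Function.update w j (!(w j))) = !(parity w) := by
  unfold parity
  induction b with
  | zero => exact j.elim0
  | succ b ih =>
    rw [List.ofFn_succ, List.ofFn_succ, parL_cons, parL_cons]
    refine Fin.cases ?_ (fun j => ?_) j
    · have h1 : (fun i : Fin b => Function.update w 0 (!(w 0)) i.succ) = fun i => w i.succ := by
        funext i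
        rw [Function.update_of_ne (Fin.succ_ne_zero i)]
      rw [h1, Function.update_self]
      simp
    · have h1 : (fun i : Fin b => Function.update w j.succ (!(w j.succ)) i.succ) =
          Function.update (fun i => w i.succ) j (!(w j.succ)) := by
        funext i
        by_cases h : i = j
        · subst h; simp
        · rw [Function.update_of_ne h, Function.update_of_ne]
          exact fun e => h (Fin.succ_injective _ e)
      rw [h1, ih (fun i => w i.succ) j, Function.update_of_ne (Fin.succ_ne_zero j).symm]
      simp

/-- The number of input bits used by the code. -/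
def codeLen (g m b : ℕ) : ℕ := g * (2 * (m * (2 * b + 2) + 2) + (m * m * 4 + 2))

/-- The function computed by a block diagonal bilinear form on the parities of the blocks. -/
def blockForm {g m : ℕ} (a : Fin g → Fin m → Fin m → Bool) (z : Fin g × (Fin m ⊕ Fin m) → Bool) :
    ℕ := ∑ i, ∑ j, ∑ k, (a i j k && z (i, Sum.inl j) && z (i, Sum.inr k)).toNat

theorem embed {g m b n : ℕ} (a : Fin g → Fin m → Fin m → Bool) (hn : codeLen g m b ≤ n) :
    ∃ τ : Fin n → Bool ⊕ (Fin g × (Fin m ⊕ Fin m)) × Fin b,
      ∀ x : (Fin g × (Fin m ⊕ Fin m)) × Fin b → Bool,
        List.ofFn (fun i => Sum.elim id x (τ i)) ∈ lang ↔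
          blockForm a (fun w => parity fun j => x (w, j)) % 2 = 1 := by
  classical
  let E := Bool ⊕ (Fin g × (Fin m ⊕ Fin m)) × Fin b
  let c : Bool → E := Sum.inl
  let ub : Fin g → List (List E) := fun i =>
    List.ofFn fun j : Fin m => List.ofFn fun k : Fin b => (Sum.inr ((i, Sum.inl j), k) : E)
  let vb : Fin g → List (List E) := fun i =>
    List.ofFn fun j : Fin m => List.ofFn fun k : Fin b => (Sum.inr ((i, Sum.inr j), k) : E)
  let ab : Fin g → List (List E) := fun i =>
    List.ofFn fun t : Fin (m * m) => [c (a i t.divNat t.modNat)]
  let T₀ : List E := (List.finRange g).flatMap fun i =>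
    eList c (ub i) ++ eList c (vb i) ++ eList c (ab i)
  have hlen : T₀.length = codeLen g m b := by
    have h1 : ∀ i, (eList c (ub i)).length = m * (2 * b + 2) + 2 := fun i => by
      rw [length_eList_of c (ub i) (k := b)]
      · simp [ub]
      · intro l hl
        simp only [ub, List.mem_ofFn] at hl
        obtain ⟨j, rfl⟩ := hl
        simp
    have h2 : ∀ i, (eList c (vb i)).length = m * (2 * b + 2) + 2 := fun i => by
      rw [length_eList_of c (vb i) (k := b)]
      · simp [vb]
      · intro l hl
        simp only [vb, List.mem_ofFn] at hl
        obtain ⟨j, rfl⟩ := hl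
        simp
    have h3 : ∀ i, (eList c (ab i)).length = m * m * 4 + 2 := fun i => by
      rw [length_eList_of c (ab i) (k := 1)]
      · simp [ab]
      · intro l hl
        simp only [ab, List.mem_ofFn] at hl
        obtain ⟨j, rfl⟩ := hl
        simp
    simp only [T₀, List.length_flatMap, List.length_append, h1, h2, h3]
    simp only [List.map_const', List.length_finRange, List.sum_replicate, smul_eq_mul, codeLen]
    ring
  let T : List E := T₀ ++ List.replicate (n - codeLen g m b) (c false)
  have hT : T.length = n := by
    simp only [T, List.length_append, hlen, List.length_replicate]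
    omega
  refine ⟨fun i => T.get (i.cast hT.symm), fun x => ?_⟩
  let f : E → Bool := Sum.elim id x
  have hword : List.ofFn (fun i : Fin n => f (T.get (i.cast hT.symm))) = T.map f := by
    apply List.ext_getElem
    · simp [hT]
    · intro i h1 h2
      simp
  have hfc : f ∘ c = id := by
    funext b'
    rfl
  show List.ofFn (fun i : Fin n => f (T.get (i.cast hT.symm))) ∈ lang ↔ _
  rw [hword]
  let z : Fin g × (Fin m ⊕ Fin m) → Bool := fun w => parity fun j => x (w, j)
  have hmap : T.map f = ((List.finRange g).flatMap fun i =>
      eList id ((ub i).map (List.map f)) ++ eList id ((vb i).map (List.map f)) ++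
        eList id ((ab i).map (List.map f))) ++ List.replicate (n - codeLen g m b) false := by
    simp only [T, T₀, List.map_append, List.map_flatMap, map_eList, List.map_replicate, hfc]
    rfl
  have hu : ∀ i, ((ub i).map (List.map f)).map parL = List.ofFn fun j => z (i, Sum.inl j) := by
    intro i
    simp only [ub, List.map_ofFn]
    congr 1
    funext j
    simp only [Function.comp, List.map_ofFn]
    rfl
  have hv : ∀ i, ((vb i).map (List.map f)).map parL = List.ofFn fun j => z (i, Sum.inr j) := by
    intro i
    simp only [vb, List.map_ofFn]
    congr 1
    funext j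
    simp only [Function.comp, List.map_ofFn]
    rfl
  have ha : ∀ i, ((ab i).map (List.map f)).map parL =
      List.ofFn fun t : Fin (m * m) => a i t.divNat t.modNat := by
    intro i
    simp only [ab, List.map_ofFn]
    congr 1
    funext t
    simp only [Function.comp, List.map_cons, List.map_nil]
    simp [parL, f, c]
  have hscan : ∀ (is : List (Fin g)) (w : List Bool), scan ((is.flatMap fun i =>
      eList id ((ub i).map (List.map f)) ++ eList id ((vb i).map (List.map f)) ++
        eList id ((ab i).map (List.map f))) ++ w) false [] =
      (is.flatMap fun i => [List.ofFn fun j => z (i, Sum.inl j), List.ofFn fun j => z (i, Sum.inr j),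
        List.ofFn fun t : Fin (m * m) => a i t.divNat t.modNat]) ++ scan w false [] := by
    intro is w
    induction is with
    | nil => rfl
    | cons i is ih =>
      rw [List.flatMap_cons, List.flatMap_cons, List.append_assoc, List.append_assoc,
        List.append_assoc, scan_eList, scan_eList, scan_eList, ih, hu, hv, ha]
      rfl
  have key : total (scan (T.map f) false []) = blockForm a z := by
    rw [hmap, hscan, scan_zeros, List.append_nil, total_flatMap]
    unfold blockForm
    rw [Finset.sum_congr rfl fun i _ => (bilin_ofFn (fun j => z (i, Sum.inl j))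
      (fun j => z (i, Sum.inr j)) (a i)).symm]
    rw [Fin.sum_univ_def]
  show total (scan (T.map f) false []) % 2 = 1 ↔ _
  rw [key]

end Vale.Agent.P336
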