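import Mathlib

/-!
# P336: the explicit language

Words are read two bits at a time: `00` and `01` add a bit to the current block, `10` ends the
block, `11` ends the list.  So a word is a sequence of lists of blocks, and every block is
replaced by the parity of its bits.  The lists are taken three at a time, as `u`, `v` and a matrix
`A` given row by row; the word is in the language if the sum of all `uᵀ A v` is odd.
-/

namespace Vale.Agent.P336

open Finset

/-- The lists of block parities of a word; `s` is the parity of the current block and `l` the
current list. -/
def scan : List Bool → Bool → List Bool → List (List Bool)
  | false :: b :: w, s, l => scan w (xor s b) l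
  | true :: false :: w, s, l => scan w false (l ++ [s])
  | true :: true :: w, _, l => l :: scan w false []
  | _, _, _ => []

/-- The `i`-th bit of a list, as a number. -/
def bitAt (l : List Bool) (i : ℕ) : ℕ := (l.getD i false).toNat

/-- `uᵀ A v`, where the matrix `A` is given row by row in the list `a`. -/
def bilin (u v a : List Bool) : ℕ :=
  ∑ p ∈ range u.length, ∑ q ∈ range v.length, bitAt u p * bitAt v q * bitAt a (p * v.length + q)

/-- The sum of the `uᵀ A v` over the consecutive triples of a list. -/
def total (d : List (List Bool)) : ℕ :=
  ∑ i ∈ range (d.length / 3),
    bilin (d.getD (3 * i) []) (d.getD (3 * i + 1) []) (d.getD (3 * i + 2) [])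

/-- The explicit language. -/
def lang : Set (List Bool) := {w | total (scan w false []) % 2 = 1}

end Vale.Agent.P336
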